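import Vale.Agent.Lib.P031.Final

/-!
# P031: the conjecture of Erdős and Hall (1976)

`V(x)` is the number of distinct values of Euler's function `φ` up to `x`.
For every real `c > 1`, `V(c x)/V(x) → c` as `x → ∞`.
-/

namespace Vale.Agent.Results.P031.ErdosHallRatio

open Filter Topology

/-- `V(x)`: the number of distinct values `v = φ(n)`, `n ≥ 1`, with `v ≤ x`. -/
noncomputable def V (x : ℝ) : ℕ :=
  {v : ℕ | (v : ℝ) ≤ x ∧ ∃ n : ℕ, 1 ≤ n ∧ Nat.totient n = v}.ncard

theorem V_eq (x : ℝ) (hx : 0 ≤ x) : V x = P031.V x := by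
  classical
  unfold V P031.V
  rw [← Set.ncard_coe_finset]
  congr 1
  ext v
  unfold P031.Vset
  simp only [Set.mem_ofPred_eq, Finset.coe_filter, Finset.mem_Icc]
  constructor
  · rintro ⟨h1, n, hn, h2⟩
    refine ⟨⟨?_, Nat.le_floor h1⟩, n, h2⟩
    rw [← h2]
    exact Nat.totient_pos.2 hn
  · rintro ⟨⟨h1, h2⟩, n, h3⟩
    refine ⟨le_trans (Nat.cast_le.2 h2) (Nat.floor_le hx), n, ?_, h3⟩
    rcases Nat.eq_zero_or_pos n with h | h
    · subst h
      rw [Nat.totient_zero] at h3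
      omega
    · exact h

theorem result : ∀ c : ℝ, 1 < c →
    Tendsto (fun x : ℝ => (V (c * x) : ℝ) / (V x : ℝ)) atTop (𝓝 c) := by
  intro c hc
  refine (P031.main c hc).congr' ?_
  filter_upwards [eventually_ge_atTop (0 : ℝ)] with x hx
  rw [V_eq x hx, V_eq (c * x) (by positivity)]

end Vale.Agent.Results.P031.ErdosHallRatio
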