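import Vale.Agent.Lib.P031.Final

/-!
# P031, Q2 (Erdős and Hall, 1976), without any definition

`Nat.totient` is Euler's function `φ` of Mathlib. The theorem says: the function `V` of the problem
file exists (all the sets counted are finite; it is unique, since it is given by cardinalities), and
`V(c x)/V(x) → c` for every real `c > 1`; moreover the number of totient values in the interval
`(a x, b x]`, divided by `V(x)`, tends to `b - a` for all real `0 < a < b`.
-/

namespace Vale.Agent.Results.P031.IntervalCounts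

open Filter Topology

theorem mem_Vset {x : ℝ} (hx : 0 ≤ x) (v : ℕ) :
    v ∈ P031.Vset x ↔ ((v : ℝ) ≤ x ∧ ∃ n : ℕ, 1 ≤ n ∧ Nat.totient n = v) := by
  classical
  unfold P031.Vset
  rw [Finset.mem_filter, Finset.mem_Icc]
  constructor
  · rintro ⟨⟨h1, h2⟩, n, h3⟩
    refine ⟨le_trans (Nat.cast_le.2 h2) (Nat.floor_le hx), n, ?_, h3⟩
    rcases Nat.eq_zero_or_pos n with h | h
    · subst h
      rw [Nat.totient_zero] at h3
      omega
    · exact h
  · rintro ⟨h1, n, hn, rfl⟩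
    exact ⟨⟨Nat.totient_pos.2 hn, Nat.le_floor h1⟩, n, rfl⟩

theorem set_eq {x : ℝ} (hx : 0 ≤ x) :
    {v : ℕ | (v : ℝ) ≤ x ∧ ∃ n : ℕ, 1 ≤ n ∧ Nat.totient n = v} = (P031.Vset x : Set ℕ) := by
  ext v
  rw [Finset.mem_coe, mem_Vset hx]
  rfl

theorem V_pos {x : ℝ} (h : 1 ≤ x) : 0 < P031.V x := by
  classical
  unfold P031.V
  apply Finset.card_pos.2
  exact ⟨1, (mem_Vset (by linarith) 1).2 ⟨by exact_mod_cast h, 1, le_rfl, Nat.totient_one⟩⟩

theorem tendsto_all (c : ℝ) (hc : 0 < c) :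
    Tendsto (fun x : ℝ => (P031.V (c * x) : ℝ) / (P031.V x : ℝ)) atTop (𝓝 c) := by
  rcases lt_trichotomy c 1 with h | h | h
  · have h1 := P031.main c⁻¹ ((one_lt_inv₀ hc).2 h)
    have h2 : Tendsto (fun x : ℝ => c * x) atTop atTop := tendsto_id.const_mul_atTop hc
    have h3 := (h1.comp h2).inv₀ (inv_ne_zero hc.ne')
    rw [inv_inv] at h3
    refine h3.congr fun x => ?_
    simp only [Function.comp_apply]
    rw [← mul_assoc, inv_mul_cancel₀ hc.ne', one_mul, inv_div]
  · subst h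
    refine tendsto_const_nhds.congr' ?_
    filter_upwards [eventually_ge_atTop (1 : ℝ)] with x hx
    rw [one_mul, div_self]
    exact_mod_cast (V_pos hx).ne'
  · exact P031.main c h

theorem interval {s t : ℝ} (hs : 0 ≤ s) (hst : s ≤ t) :
    ({v : ℕ | s < (v : ℝ) ∧ (v : ℝ) ≤ t ∧ ∃ n : ℕ, 1 ≤ n ∧ Nat.totient n = v}.ncard : ℝ) =
      (P031.V t : ℝ) - P031.V s := by
  classical
  have hsub : P031.Vset s ⊆ P031.Vset t := by
    intro v hv
    rw [mem_Vset hs] at hv
    rw [mem_Vset (hs.trans hst)]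
    exact ⟨hv.1.trans hst, hv.2⟩
  have e : {v : ℕ | s < (v : ℝ) ∧ (v : ℝ) ≤ t ∧ ∃ n : ℕ, 1 ≤ n ∧ Nat.totient n = v} =
      ((P031.Vset t \ P031.Vset s : Finset ℕ) : Set ℕ) := by
    ext v
    rw [Finset.mem_coe, Finset.mem_sdiff, mem_Vset hs, mem_Vset (hs.trans hst)]
    constructor
    · rintro ⟨h1, h2, h3⟩
      exact ⟨⟨h2, h3⟩, fun h => absurd h.1 (not_le.2 h1)⟩
    · rintro ⟨⟨h2, h3⟩, h⟩
      refine ⟨?_, h2, h3⟩
      by_contra h1
      exact h ⟨not_lt.1 h1, h3⟩
  rw [e, Set.ncard_coe_finset, Finset.card_sdiff_of_subset hsub,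
    Nat.cast_sub (Finset.card_le_card hsub)]
  rfl

/-- There is a function `V` such that, for every real `x`, the set of all `v ≤ x` of the form
`v = φ(n)`, `n ≥ 1`, has exactly `V x` elements (the number of distinct totient values up to
`x`), and

* (Q2 of the problem) for every fixed real `c > 1`, `V(c x)/V(x) → c` as `x → ∞`;
* for all real `0 < a < b`, the number of totient values `v` with `a x < v ≤ b x` is
  `(b - a + o(1)) V(x)` as `x → ∞`. -/
theorem result : ∃ V : ℝ → ℕ,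
    (∀ x : ℝ, {v : ℕ | (v : ℝ) ≤ x ∧ ∃ n : ℕ, 1 ≤ n ∧ Nat.totient n = v}.encard = (V x : ℕ∞)) ∧
    (∀ c : ℝ, 1 < c → Tendsto (fun x : ℝ => (V (c * x) : ℝ) / (V x : ℝ)) atTop (𝓝 c)) ∧
    (∀ a b : ℝ, 0 < a → a < b → Tendsto (fun x : ℝ =>
      ({v : ℕ | a * x < (v : ℝ) ∧ (v : ℝ) ≤ b * x ∧
        ∃ n : ℕ, 1 ≤ n ∧ Nat.totient n = v}.ncard : ℝ) / (V x : ℝ)) atTop (𝓝 (b - a))) := by
  classical
  refine ⟨fun x => if 0 ≤ x then P031.V x else 0, ?_, ?_, ?_⟩
  · intro x
    by_cases hx : 0 ≤ x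
    · simp only [if_pos hx]
      rw [set_eq hx, Set.encard_coe_eq_coe_finsetCard]
      rfl
    · simp only [if_neg hx]
      have : {v : ℕ | (v : ℝ) ≤ x ∧ ∃ n : ℕ, 1 ≤ n ∧ Nat.totient n = v} = ∅ := by
        apply Set.eq_empty_of_forall_notMem
        rintro v ⟨h1, -⟩
        exact hx (le_trans (Nat.cast_nonneg v) h1)
      rw [this, Set.encard_empty]
      rfl
  · intro c hc
    refine (P031.main c hc).congr' ?_
    filter_upwards [eventually_ge_atTop (0 : ℝ)] with x hx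
    simp only [if_pos hx, if_pos (mul_nonneg (by linarith : (0 : ℝ) ≤ c) hx)]
  · intro a b ha hab
    have hb : 0 < b := ha.trans hab
    refine ((tendsto_all b hb).sub (tendsto_all a ha)).congr' ?_
    filter_upwards [eventually_ge_atTop (0 : ℝ)] with x hx
    rw [interval (mul_nonneg ha.le hx) (mul_le_mul_of_nonneg_right hab.le hx)]
    simp only [if_pos hx]
    rw [sub_div]

end Vale.Agent.Results.P031.IntervalCounts
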