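import Vale.Agent.Lib.P031.Final

/-!
# P031, Q2 (Erdős and Hall, 1976), uniform form

`V(c x)/V(x) → c` as `x → ∞`, uniformly for `c` in compact subsets of `(0, ∞)`.
-/

namespace Vale.Agent.Results.P031.UniformDilation

open Filter Topology

/-- the values of Euler's function on the positive integers -/
def totientValues : Set ℕ := Nat.totient '' Set.Ioi 0

/-- the number of elements of `S` that are at most the real number `x` -/
noncomputable def countLE (S : Set ℕ) (x : ℝ) : ℕ := Nat.card {v : ℕ // v ∈ S ∧ (v : ℝ) ≤ x}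

theorem countLE_eq (x : ℝ) (hx : 0 ≤ x) : countLE totientValues x = P031.V x := by
  classical
  unfold countLE P031.V
  rw [← Nat.card_eq_finsetCard]
  refine Nat.card_congr (Equiv.subtypeEquivRight fun v => ?_)
  unfold P031.Vset totientValues
  rw [Finset.mem_filter, Finset.mem_Icc, Set.mem_image]
  constructor
  · rintro ⟨⟨n, hn, rfl⟩, h1⟩
    exact ⟨⟨Nat.totient_pos.2 hn, Nat.le_floor h1⟩, n, rfl⟩
  · rintro ⟨⟨h1, h2⟩, n, h3⟩
    refine ⟨⟨n, ?_, h3⟩, le_trans (Nat.cast_le.2 h2) (Nat.floor_le hx)⟩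
    rcases Nat.eq_zero_or_pos n with h | h
    · subst h
      rw [Nat.totient_zero] at h3
      omega
    · exact h

theorem V_mono {x y : ℝ} (h : x ≤ y) : P031.V x ≤ P031.V y := by
  classical
  unfold P031.V P031.Vset
  exact Finset.card_le_card (Finset.filter_subset_filter _
    (Finset.Icc_subset_Icc_right (Nat.floor_le_floor h)))

theorem V_pos {x : ℝ} (h : 1 ≤ x) : 0 < P031.V x := by
  classical
  unfold P031.V P031.Vset
  apply Finset.card_pos.2
  exact ⟨1, Finset.mem_filter.2 ⟨Finset.mem_Icc.2 ⟨le_rfl, Nat.le_floor (by exact_mod_cast h)⟩,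
    1, Nat.totient_one⟩⟩

/-- all dilation factors `c > 0` -/
theorem tendsto_all (c : ℝ) (hc : 0 < c) :
    Tendsto (fun x : ℝ => (P031.V (c * x) : ℝ) / (P031.V x : ℝ)) atTop (𝓝 c) := by
  rcases lt_trichotomy c 1 with h | h | h
  · have h1 := P031.main c⁻¹ ((one_lt_inv₀ hc).2 h)
    have h2 : Tendsto (fun x : ℝ => c * x) atTop atTop := tendsto_id.const_mul_atTop hc
    have h3 := (h1.comp h2).inv₀ (inv_ne_zero hc.ne')
    rw [inv_inv] at h3
    refine h3.congr fun x => ?_
    simp only [Function.comp_apply]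
    rw [← mul_assoc, inv_mul_cancel₀ hc.ne', one_mul, inv_div]
  · subst h
    refine tendsto_const_nhds.congr' ?_
    filter_upwards [eventually_ge_atTop (1 : ℝ)] with x hx
    rw [one_mul, div_self]
    exact_mod_cast (V_pos hx).ne'
  · exact P031.main c h

theorem result : ∀ a b ε : ℝ, 0 < a → 0 < ε → ∃ X : ℝ, ∀ x : ℝ, X ≤ x →
    ∀ c ∈ Set.Icc a b,
      |(countLE totientValues (c * x) : ℝ) / (countLE totientValues x : ℝ) - c| ≤ ε := by
  intro a b ε ha hε
  set δ : ℝ := ε / 2 with hδ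
  have hδ0 : 0 < δ := by positivity
  set g : ℕ → ℝ := fun i => a + i * δ with hg
  have hg0 : ∀ i, 0 < g i := fun i => by positivity
  set N : ℕ := ⌊(b - a) / δ⌋₊ + 1 with hN
  have hev : ∀ᶠ x : ℝ in atTop, ∀ i ∈ Finset.range (N + 1),
      |(P031.V (g i * x) : ℝ) / (P031.V x : ℝ) - g i| < δ := by
    rw [Filter.eventually_all_finset]
    intro i _
    have h1 := tendsto_all (g i) (hg0 i)
    rw [Metric.tendsto_atTop] at h1
    obtain ⟨X, hX⟩ := h1 δ hδ0
    filter_upwards [eventually_ge_atTop X] with x hx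
    have := hX x hx
    rwa [Real.dist_eq] at this
  obtain ⟨X, hX⟩ := eventually_atTop.1 hev
  refine ⟨max X 1, fun x hx c hc => ?_⟩
  have hx1 : 1 ≤ x := (le_max_right _ _).trans hx
  have hx0 : 0 ≤ x := by linarith
  have hXx := hX x ((le_max_left _ _).trans hx)
  have hc0 : 0 < c := ha.trans_le hc.1
  rw [countLE_eq x hx0, countLE_eq (c * x) (by positivity)]
  have hV : (0 : ℝ) < P031.V x := by exact_mod_cast V_pos hx1
  have hca : 0 ≤ (c - a) / δ := div_nonneg (sub_nonneg.2 hc.1) hδ0.le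
  set i : ℕ := ⌊(c - a) / δ⌋₊ with hi
  have hi1 : (i : ℝ) ≤ (c - a) / δ := Nat.floor_le hca
  have hi2 : (c - a) / δ < i + 1 := Nat.lt_floor_add_one _
  have hi3 : (i : ℝ) * δ ≤ c - a := (le_div_iff₀ hδ0).1 hi1
  have hi4 : c - a < ((i : ℝ) + 1) * δ := (div_lt_iff₀ hδ0).1 hi2
  have hiN : i ≤ N - 1 := by
    rw [hN, Nat.add_sub_cancel]
    exact Nat.floor_le_floor (div_le_div_of_nonneg_right (by linarith [hc.2]) hδ0.le)
  have hN1 : 1 ≤ N := by omega
  have m1 := hXx i (Finset.mem_range.2 (by omega))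
  have m2 := hXx (i + 1) (Finset.mem_range.2 (by omega))
  rw [abs_lt] at m1 m2
  have hgi : g i ≤ c := by
    simp only [hg]
    linarith
  have hgi1 : c ≤ g (i + 1) := by
    simp only [hg]
    push_cast
    linarith
  have hgg : g (i + 1) = g i + δ := by
    simp only [hg]
    push_cast
    ring
  have v1 : (P031.V (g i * x) : ℝ) ≤ P031.V (c * x) := by
    exact_mod_cast V_mono (mul_le_mul_of_nonneg_right hgi hx0)
  have v2 : (P031.V (c * x) : ℝ) ≤ P031.V (g (i + 1) * x) := by
    exact_mod_cast V_mono (mul_le_mul_of_nonneg_right hgi1 hx0)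
  have w1 : (P031.V (g i * x) : ℝ) / P031.V x ≤ P031.V (c * x) / P031.V x :=
    div_le_div_of_nonneg_right v1 hV.le
  have w2 : (P031.V (c * x) : ℝ) / P031.V x ≤ P031.V (g (i + 1) * x) / P031.V x :=
    div_le_div_of_nonneg_right v2 hV.le
  rw [abs_le]
  constructor
  · linarith [m1.1]
  · linarith [m2.2]

end Vale.Agent.Results.P031.UniformDilation
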